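import Vale.Agent.P366.H296.N.X4

/-! Kerr-Schild exteriors in all dimensions: the momentum integrals of the level sets vanish in
the limit. -/

open MeasureTheory Metric Filter Topology Set
open scoped ContDiff ENNReal

noncomputable section
namespace Vale.Agent.P366.KSN

open Vale.Agent.P366 (pd E)
open Vale.Agent.P366.H353.N
open Vale.Agent.P366.Kerr (NullCone IsSlice Region Psi pt sp nul ksG indG indK DECat)

variable {n : ℕ} {C : NullCone n} {lam f : E n → ℝ} {V : E (n + 1) → ℝ} {D : Stmt.Exterior n}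
  {x y z : E n} {s t : ℝ}

/-! ### a convex function -/

/-- a smooth version of `2 v⁻` -/
def psi (ε v : ℝ) : ℝ := √(v ^ 2 + ε ^ 2) - v - ε

lemma psi_aux {ε : ℝ} (hε : 0 < ε) (v : ℝ) : 0 < v ^ 2 + ε ^ 2 := by positivity

lemma sqrt_smooth {ε : ℝ} (hε : 0 < ε) : ContDiff ℝ ∞ fun v : ℝ => √(v ^ 2 + ε ^ 2) :=
  ((contDiff_id.pow 2).add contDiff_const).sqrt fun v => (psi_aux hε v).ne'

lemma hasDerivAt_sq {ε : ℝ} (hε : 0 < ε) (v : ℝ) :
    HasDerivAt (fun v : ℝ => √(v ^ 2 + ε ^ 2)) (v / √(v ^ 2 + ε ^ 2)) v := by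
  have h1 : HasDerivAt (fun v : ℝ => v ^ 2 + ε ^ 2) (2 * v) v := by
    have := ((hasDerivAt_id v).pow 2).add_const (ε ^ 2)
    simpa using this
  have h := h1.sqrt (psi_aux hε v).ne'
  have e : 2 * v / (2 * √(v ^ 2 + ε ^ 2)) = v / √(v ^ 2 + ε ^ 2) := by
    rw [mul_div_mul_left _ _ two_ne_zero]
  rwa [e] at h

/-- the derivative of `psi` -/
def dpsi (ε v : ℝ) : ℝ := v / √(v ^ 2 + ε ^ 2) - 1

lemma hasDerivAt_psi {ε : ℝ} (hε : 0 < ε) (v : ℝ) : HasDerivAt (psi ε) (dpsi ε v) v := by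
  have h := ((hasDerivAt_sq hε v).sub (hasDerivAt_id v)).sub_const ε
  exact h

lemma dpsi_smooth {ε : ℝ} (hε : 0 < ε) : ContDiff ℝ ∞ (dpsi ε) :=
  (contDiff_id.div (sqrt_smooth hε) fun v => (Real.sqrt_pos.mpr (psi_aux hε v)).ne').sub
    contDiff_const

lemma hasDerivAt_dpsi {ε : ℝ} (hε : 0 < ε) (v : ℝ) :
    HasDerivAt (dpsi ε) (ε ^ 2 / √(v ^ 2 + ε ^ 2) ^ 3) v := by
  have hp := Real.sqrt_pos.mpr (psi_aux hε v)
  have h := ((hasDerivAt_id v).div (hasDerivAt_sq hε v) hp.ne').sub_const 1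
  have hsq : √(v ^ 2 + ε ^ 2) ^ 2 = v ^ 2 + ε ^ 2 := Real.sq_sqrt (psi_aux hε v).le
  have e : (1 * √(v ^ 2 + ε ^ 2) - id v * (v / √(v ^ 2 + ε ^ 2))) / √(v ^ 2 + ε ^ 2) ^ 2 =
      ε ^ 2 / √(v ^ 2 + ε ^ 2) ^ 3 := by
    have e2 : (1 * √(v ^ 2 + ε ^ 2) - id v * (v / √(v ^ 2 + ε ^ 2))) =
        (√(v ^ 2 + ε ^ 2) ^ 2 - v ^ 2) / √(v ^ 2 + ε ^ 2) := by
      rw [id]
      field_simp
    rw [e2, hsq]
    have e3 : v ^ 2 + ε ^ 2 - v ^ 2 = ε ^ 2 := by ring
    have e4 : √(v ^ 2 + ε ^ 2) ^ 3 = √(v ^ 2 + ε ^ 2) * √(v ^ 2 + ε ^ 2) ^ 2 := by ring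
    rw [e3, div_div, e4, hsq]
  rw [e] at h
  exact h

lemma dpsi_nonpos {ε : ℝ} (hε : 0 < ε) (v : ℝ) : dpsi ε v ≤ 0 := by
  have hp := Real.sqrt_pos.mpr (psi_aux hε v)
  have h1 : v ≤ √(v ^ 2 + ε ^ 2) := by
    refine Real.le_sqrt_of_sq_le ?_
    nlinarith only [sq_nonneg ε]
  unfold dpsi
  rw [sub_nonpos, div_le_one hp]
  exact h1

lemma psi_sub {ε : ℝ} (hε : 0 < ε) (v : ℝ) : psi ε v - v * dpsi ε v ≤ 0 := by
  have hp := Real.sqrt_pos.mpr (psi_aux hε v)
  have hsq : √(v ^ 2 + ε ^ 2) ^ 2 = v ^ 2 + ε ^ 2 := Real.sq_sqrt (psi_aux hε v).le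
  have h1 : ε ≤ √(v ^ 2 + ε ^ 2) := by
    refine Real.le_sqrt_of_sq_le ?_
    nlinarith only [sq_nonneg v]
  unfold psi dpsi
  set r := √(v ^ 2 + ε ^ 2)
  have e : r - v - ε - v * (v / r - 1) = (r ^ 2 - v ^ 2) / r - ε := by
    field_simp
    ring
  rw [e, hsq]
  have e3 : v ^ 2 + ε ^ 2 - v ^ 2 = ε ^ 2 := by ring
  rw [e3, sub_nonpos, div_le_iff₀ hp]
  nlinarith only [h1, hε]

lemma psi_le {ε : ℝ} (hε : 0 < ε) (v : ℝ) : psi ε v ≤ |v| - v := by
  have h1 : √(v ^ 2 + ε ^ 2) ≤ |v| + ε := by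
    rw [Real.sqrt_le_left (by positivity)]
    have : (|v| + ε) ^ 2 = v ^ 2 + ε ^ 2 + 2 * |v| * ε := by
      rw [add_sq, sq_abs]; ring
    rw [this]
    have : 0 ≤ 2 * |v| * ε := by positivity
    linarith only [this]
  unfold psi
  linarith only [h1]

lemma le_psi {ε : ℝ} (v : ℝ) : |v| - v - ε ≤ psi ε v := by
  have h1 : |v| ≤ √(v ^ 2 + ε ^ 2) := by
    refine Real.le_sqrt_of_sq_le ?_
    rw [sq_abs]
    nlinarith only [sq_nonneg ε]
  unfold psi
  linarith only [h1]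

/-! ### the negative part -/

theorem psi_mono [Fact (3 ≤ n)] (hS : IsSlice C lam V f D)
    (hV : ∀ p ∈ Region lam f D, ContDiffAt ℝ ∞ V p ∧ DECat (ksG lam V) (nul lam) p)
    {L1 L2 ε : ℝ} (hε : 0 < ε) (h12 : L1 ≤ L2) (h0 : 0 < L1)
    (hfar : ∀ L, L1 ≤ L → ∀ x : E n, ‖x‖ = 1 → C.U x < L ∧ f (Y C.H x L) = 0) :
    SI (fun x => psi ε (V (pt 0 (Y C.H x L2))) * sg C.H L2 x) ≤
      SI (fun x => psi ε (V (pt 0 (Y C.H x L1))) * sg C.H L1 x) := by
  have hVs : ∀ s ∈ Icc L1 L2, ∀ x : E n, ‖x‖ = 1 → ContDiffAt ℝ ∞ V (pt 0 (Y C.H x s)) :=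
    fun s hs x hx => V_level hS hV (h0.le.trans hs.1) (hfar s hs.1) hx
  have cps : Continuous (psi ε) :=
    (((sqrt_smooth hε).continuous).sub continuous_id).sub continuous_const
  have cdps : Continuous (dpsi ε) := (dpsi_smooth hε).continuous
  have cv : ContinuousOn (fun p : ℝ × E n => V (pt 0 (Y C.H p.2 p.1)))
      (Icc L1 L2 ×ˢ sphere 0 1) :=
    cYF2 (F := fun z => V (pt 0 z)) fun s hs x hx => (X5.cd_pt (hVs s hs x hx)).continuousAt
  have cvd : ContinuousOn (fun p : ℝ × E n => ∑ j, p.2 j * pd j.succ V (pt 0 (Y C.H p.2 p.1)))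
      (Icc L1 L2 ×ˢ sphere 0 1) := by
    refine continuousOn_finsetSum _ fun j _ => ContinuousOn.mul ?_ ?_
    · exact ((EuclideanSpace.proj (𝕜 := ℝ) j).continuous.comp continuous_snd).continuousOn
    · exact cYF2 (F := fun z => pd j.succ V (pt 0 z)) fun s hs x hx =>
        (X5.cd_pt (pd_contDiffAt (hVs s hs x hx) j.succ)).continuousAt
  have csg := sg_cont2 C (S := Icc L1 L2)
  have hU : ∀ x : E n, ‖x‖ = 1 → C.U x ≤ L1 := fun x hx => (hfar L1 le_rfl x hx).1.le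
  have ckp := kp_cont2 C (b := L2) hU
  have hpv := cps.comp_continuousOn cv
  have hdv := cdps.comp_continuousOn cv
  have cfin : ContinuousOn (fun p : ℝ × E n => -(dpsi ε (V (pt 0 (Y C.H p.2 p.1))) *
      (∑ j, p.2 j * pd j.succ V (pt 0 (Y C.H p.2 p.1))) * sg C.H p.1 p.2 +
      psi ε (V (pt 0 (Y C.H p.2 p.1))) * kp C.H p.1 p.2)) (Icc L1 L2 ×ˢ sphere 0 1) :=
    (((hdv.mul cvd).mul csg).add (hpv.mul ckp)).neg
  have hmain := H296.N.SI_mono_param
    (g := fun s x => -(psi ε (V (pt 0 (Y C.H x s))) * sg C.H s x))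
    (g' := fun s x => -(dpsi ε (V (pt 0 (Y C.H x s))) *
      (∑ j, x j * pd j.succ V (pt 0 (Y C.H x s))) * sg C.H s x +
      psi ε (V (pt 0 (Y C.H x s))) * kp C.H s x)) h12 ((hpv.mul csg).neg) cfin ?_ ?_
  · have e : ∀ s, SI (fun x => -(psi ε (V (pt 0 (Y C.H x s))) * sg C.H s x)) =
        - SI (fun x => psi ε (V (pt 0 (Y C.H x s))) * sg C.H s x) := fun s => SI_neg _
    rw [e, e] at hmain
    exact neg_le_neg_iff.mp hmain
  · intro s hs x hx
    have hs' := Ioo_subset_Icc_self hs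
    have k1 := hasDerivAt_V0Y (H := C.H) ((hVs s hs' x hx).differentiableAt (by simp))
    have k2 := hasDerivAt_sg C hx ((hU x hx).trans hs.1.le)
    have k3 := (hasDerivAt_psi hε (V (pt 0 (Y C.H x s)))).comp s k1
    exact (k3.mul k2).neg
  · intro s hs
    have hs' := Ioo_subset_Icc_self hs
    have hfs := hfar s hs'.1
    have h0s : 0 ≤ s := h0.le.trans hs'.1
    have hUs : ∀ x : E n, ‖x‖ = 1 → C.U x ≤ s := fun x hx => (hfs x hx).1.le
    have hW : ∀ x : E n, ‖x‖ = 1 → ContDiffAt ℝ ∞ (fun z => V (pt 0 z)) (Y C.H x s) :=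
      fun x hx => X5.cd_pt (hVs s hs' x hx)
    have hgz := SI_gz hUs hW (dpsi_smooth hε) (hasDerivAt_dpsi hε) fun r => by positivity
    have c1 := H296.N.slice_cont (g := fun s x => -(dpsi ε (V (pt 0 (Y C.H x s))) *
      (∑ j, x j * pd j.succ V (pt 0 (Y C.H x s))) * sg C.H s x +
      psi ε (V (pt 0 (Y C.H x s))) * kp C.H s x)) cfin hs'
    have c2 : ContinuousOn (fun x : E n => dpsi ε (V (pt 0 (Y C.H x s)))) (sphere 0 1) :=
      H296.N.slice_cont (g := fun s x => dpsi ε (V (pt 0 (Y C.H x s)))) hdv hs'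
    have c3 : ContinuousOn (fun x => -(dpsi ε (V (pt 0 (Y C.H x s))) *
        zf C (fun z => V (pt 0 z)) s x)) (sphere (0 : E n) 1) := (c2.mul (zf_cont hW)).neg
    have hle := SI_mono c3 c1 fun x hx => by
      obtain ⟨a1, a2⟩ := hfs x hx
      have b1 := ineq_ab hS hV hx a1 h0s a2
      have b2 := mul_le_mul_of_nonpos_left b1 (dpsi_nonpos hε (V (pt 0 (Y C.H x s))))
      have b3 := mul_nonneg (kp_nonneg C hx a1.le)
        (neg_nonneg.mpr (psi_sub hε (V (pt 0 (Y C.H x s)))))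
      linarith only [b2, b3]
    have hz : SI (fun x => -(dpsi ε (V (pt 0 (Y C.H x s))) * zf C (fun z => V (pt 0 z)) s x)) =
        - SI (fun x => dpsi ε (V (pt 0 (Y C.H x s))) * zf C (fun z => V (pt 0 z)) s x) :=
      SI_neg _
    rw [hz] at hle
    exact (neg_nonneg.mpr hgz).trans hle

/-- continuity on a level set of the slice -/
lemma cV0 (hS : IsSlice C lam V f D)
    (hV : ∀ p ∈ Region lam f D, ContDiffAt ℝ ∞ V p ∧ DECat (ksG lam V) (nul lam) p)
    {L : ℝ} (h0 : 0 ≤ L) (hfar : ∀ x : E n, ‖x‖ = 1 → C.U x < L ∧ f (Y C.H x L) = 0) :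
    ContinuousOn (fun x => V (pt 0 (Y C.H x L))) (sphere (0 : E n) 1) :=
  cYF (F := fun z => V (pt 0 z)) fun _ hx =>
    (X5.cd_pt (V_level hS hV h0 hfar hx)).continuousAt

/-- the negative part is bounded -/
theorem neg_bdd [Fact (3 ≤ n)] (hS : IsSlice C lam V f D)
    (hV : ∀ p ∈ Region lam f D, ContDiffAt ℝ ∞ V p ∧ DECat (ksG lam V) (nul lam) p)
    {L1 L2 : ℝ} (h12 : L1 ≤ L2) (h0 : 0 < L1)
    (hfar : ∀ L, L1 ≤ L → ∀ x : E n, ‖x‖ = 1 → C.U x < L ∧ f (Y C.H x L) = 0) :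
    SI (fun x => (|V (pt 0 (Y C.H x L2))| - V (pt 0 (Y C.H x L2))) * sg C.H L2 x) ≤
      SI (fun x => (|V (pt 0 (Y C.H x L1))| - V (pt 0 (Y C.H x L1))) * sg C.H L1 x) + 1 := by
  have hU : ∀ L, L1 ≤ L → ∀ x : E n, ‖x‖ = 1 → C.U x ≤ L := fun L hL x hx => (hfar L hL x hx).1.le
  have hsg : ∀ L, L1 ≤ L → ∀ x : E n, ‖x‖ = 1 → 0 ≤ sg C.H L x := fun L hL x hx =>
    (sg_pos C hx (hU L hL x hx)).le
  have cs : ∀ L, ContinuousOn (fun x => sg C.H L x) (sphere (0 : E n) 1) := fun L =>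
    sg_cont C (Sm.const L)
  have cV : ∀ L, L1 ≤ L → ContinuousOn (fun x => V (pt 0 (Y C.H x L))) (sphere (0 : E n) 1) :=
    fun L hL => cV0 hS hV (h0.le.trans hL) (hfar L hL)
  set I := SI (fun x => sg C.H L2 x) with hI
  have hI0 : 0 ≤ I := SI_nonneg (hsg L2 h12)
  set ε := 1 / (1 + I) with hε
  have hε0 : 0 < ε := by positivity
  have cps : Continuous (psi ε) :=
    (((sqrt_smooth hε0).continuous).sub continuous_id).sub continuous_const
  have h := psi_mono hS hV hε0 h12 h0 hfar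
  have hup : SI (fun x => psi ε (V (pt 0 (Y C.H x L1))) * sg C.H L1 x) ≤
      SI (fun x => (|V (pt 0 (Y C.H x L1))| - V (pt 0 (Y C.H x L1))) * sg C.H L1 x) :=
    SI_mono ((cps.comp_continuousOn (cV L1 le_rfl)).mul (cs L1))
      ((((cV L1 le_rfl).abs).sub (cV L1 le_rfl)).mul (cs L1)) fun x hx =>
      mul_le_mul_of_nonneg_right (psi_le hε0 _) (hsg L1 le_rfl x hx)
  have c1 : ContinuousOn (fun x => (|V (pt 0 (Y C.H x L2))| - V (pt 0 (Y C.H x L2))) *
      sg C.H L2 x) (sphere (0 : E n) 1) := (((cV L2 h12).abs).sub (cV L2 h12)).mul (cs L2)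
  have c2 : ContinuousOn (fun x => ε * sg C.H L2 x) (sphere (0 : E n) 1) :=
    continuousOn_const.mul (cs L2)
  have hlo : SI (fun x => (|V (pt 0 (Y C.H x L2))| - V (pt 0 (Y C.H x L2))) * sg C.H L2 x -
      ε * sg C.H L2 x) ≤ SI (fun x => psi ε (V (pt 0 (Y C.H x L2))) * sg C.H L2 x) :=
    SI_mono (c1.sub c2) ((cps.comp_continuousOn (cV L2 h12)).mul (cs L2)) fun x hx => by
      have := mul_le_mul_of_nonneg_right (le_psi (ε := ε) (V (pt 0 (Y C.H x L2))))
        (hsg L2 h12 x hx)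
      linarith only [this]
  rw [SI_sub c1 c2, SI_cmul] at hlo
  have hεI : ε * I ≤ 1 := by
    rw [hε, div_mul_eq_mul_div, one_mul, div_le_one (by positivity)]
    linarith only
  linarith only [h, hup, hlo, hεI]

/-- The momentum integrals of the level sets vanish in the limit. -/
theorem p_zero [Fact (3 ≤ n)] (hS : IsSlice C lam V f D)
    (hV : ∀ p ∈ Region lam f D, ContDiffAt ℝ ∞ V p ∧ DECat (ksG lam V) (nul lam) p) {M : ℝ}
    (hM : Tendsto (fun L => SI (fun x => V (pt 0 (Y C.H x L)) * sg C.H L x)) atTop (𝓝 M))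
    (i : Fin n) :
    Tendsto (fun L => SI (fun x => V (pt 0 (Y C.H x L)) * sg C.H L x * x i)) atTop (𝓝 0) := by
  obtain ⟨L00, hfar0⟩ := f_zero_far hS
  set L0 := max L00 1 with hL0d
  have hL0 : 0 < L0 := one_pos.trans_le (le_max_right _ _)
  have hfar : ∀ L, L0 ≤ L → ∀ x : E n, ‖x‖ = 1 → C.U x < L ∧ f (Y C.H x L) = 0 :=
    fun L hL x hx => hfar0 x L hx ((le_max_left _ _).trans hL)
  obtain ⟨G, hG0, hG⟩ := Y_zero_bdd C
  have hU : ∀ L, L0 ≤ L → ∀ x : E n, ‖x‖ = 1 → C.U x ≤ L := fun L hL x hx => (hfar L hL x hx).1.le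
  have hsg : ∀ L, L0 ≤ L → ∀ x : E n, ‖x‖ = 1 → 0 ≤ sg C.H L x := fun L hL x hx =>
    (sg_pos C hx (hU L hL x hx)).le
  have cs : ∀ L, ContinuousOn (fun x => sg C.H L x) (sphere (0 : E n) 1) := fun L =>
    sg_cont C (Sm.const L)
  have cV : ∀ L, L0 ≤ L → ContinuousOn (fun x => V (pt 0 (Y C.H x L))) (sphere (0 : E n) 1) :=
    fun L hL => cV0 hS hV (hL0.le.trans hL) (hfar L hL)
  have cVs : ∀ L, L0 ≤ L → ContinuousOn (fun x => V (pt 0 (Y C.H x L)) * sg C.H L x)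
      (sphere (0 : E n) 1) := fun L hL => (cV L hL).mul (cs L)
  set A : ℝ → ℝ := fun L => SI (fun x => V (pt 0 (Y C.H x L)) * sg C.H L x) with hA
  set p : ℝ → ℝ := fun L => SI (fun x => V (pt 0 (Y C.H x L)) * sg C.H L x * x i) with hp
  set q : ℝ → ℝ := fun L => SI (fun x => Y C.H x L i * (V (pt 0 (Y C.H x L)) * sg C.H L x))
    with hq
  have hxi : ∀ x : E n, ‖x‖ = 1 → |x i| ≤ 1 := fun x hx => by
    have := PiLp.norm_apply_le x i
    rw [hx] at this
    simpa using this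
  have hgi : ∀ x : E n, ‖x‖ = 1 → |pd i C.H x| ≤ G := fun x hx => by
    have h1 := PiLp.norm_apply_le (Y C.H x 0) i
    have h2 : Y C.H x 0 i = pd i C.H x := by rw [Y_apply]; ring
    rw [h2, Real.norm_eq_abs] at h1
    exact h1.trans (hG x hx)
  have hYi : ∀ s L : ℝ, 0 ≤ s → s ≤ L → ∀ x : E n, ‖x‖ = 1 → |Y C.H x s i| ≤ L + G := by
    intro s L hs hsL x hx
    rw [Y_apply]
    have a1 := abs_add_le (pd i C.H x) (s * x i)
    have a2 : |s * x i| ≤ s := by
      rw [abs_mul, abs_of_nonneg hs]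
      exact mul_le_of_le_one_right hs (hxi x hx)
    have a3 := hgi x hx
    linarith only [a1, a2, a3, hsL]
  -- the basic inequality
  have key : ∀ L1 L2 : ℝ, L0 ≤ L1 → L1 ≤ L2 → |q L2 - q L1| ≤ (L2 + G) * (A L2 - A L1) := by
    intro L1 L2 h1 h12
    have hL1 : 0 < L1 := hL0.trans_le h1
    have hfar1 : ∀ L, L1 ≤ L → ∀ x : E n, ‖x‖ = 1 → C.U x < L ∧ f (Y C.H x L) = 0 :=
      fun L hL => hfar L (h1.trans hL)
    have hexp : ∀ (σ : ℝ) (L : ℝ), L1 ≤ L →
        SI (fun x => (L2 + G + σ * Y C.H x L i) * (V (pt 0 (Y C.H x L)) * sg C.H L x)) =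
        (L2 + G) * A L + σ * q L := by
      intro σ L hL
      have c1 := cVs L (h1.trans hL)
      have cYi : ContinuousOn (fun x => Y C.H x L i) (sphere (0 : E n) 1) :=
        (EuclideanSpace.proj (𝕜 := ℝ) i).continuous.comp_continuousOn (cY C L)
      have c2 : ContinuousOn (fun x => (L2 + G) * (V (pt 0 (Y C.H x L)) * sg C.H L x))
        (sphere (0 : E n) 1) := continuousOn_const.mul c1
      have c3 : ContinuousOn (fun x => σ * (Y C.H x L i * (V (pt 0 (Y C.H x L)) * sg C.H L x)))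
        (sphere (0 : E n) 1) := continuousOn_const.mul (cYi.mul c1)
      rw [hA, hq]
      simp only
      rw [← SI_cmul, ← SI_cmul, ← SI_add c2 c3]
      exact SI_congr fun x _ => by ring
    have hp1 := weighted_mono hS hV (L1 := L1) (L2 := L2) (B := L2 + G) (σ := 1) h12 i hL1 hfar1
      (fun s hs x hx => by
        have := (abs_le.mp (hYi s L2 (hL1.le.trans hs.1) hs.2 x hx)).1
        linarith only [this])
    have hm1 := weighted_mono hS hV (L1 := L1) (L2 := L2) (B := L2 + G) (σ := -1) h12 i hL1 hfar1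
      (fun s hs x hx => by
        have := (abs_le.mp (hYi s L2 (hL1.le.trans hs.1) hs.2 x hx)).2
        linarith only [this])
    rw [hexp 1 L1 le_rfl, hexp 1 L2 h12] at hp1
    rw [hexp (-1) L1 le_rfl, hexp (-1) L2 h12] at hm1
    rw [abs_le]
    constructor <;> linarith only [hp1, hm1]
  -- monotonicity of `A` and the bound
  have hAm : ∀ L1 L2 : ℝ, L0 ≤ L1 → L1 ≤ L2 → A L1 ≤ A L2 := by
    intro L1 L2 h1 h12
    have h2 := (abs_nonneg _).trans (key L1 L2 h1 h12)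
    have h3 : 0 < L2 + G := by linarith only [hL0, h1, h12, hG0]
    have h4 := nonneg_of_mul_nonneg_right h2 h3
    linarith only [h4]
  have hAM : ∀ L, L0 ≤ L → A L ≤ M := by
    intro L hL
    refine ge_of_tendsto hM ?_
    filter_upwards [eventually_ge_atTop L] with L' hL' using hAm L L' hL hL'
  -- the error term
  set N := SI (fun x => (|V (pt 0 (Y C.H x L0))| - V (pt 0 (Y C.H x L0))) * sg C.H L0 x) with hN
  set K := G * (M + (N + 1)) with hK
  have herr : ∀ L, L0 ≤ L → |SI (fun x => pd i C.H x * (V (pt 0 (Y C.H x L)) * sg C.H L x))| ≤ K := by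
    intro L hL
    have c1 := cVs L hL
    have cg : ContinuousOn (fun x => pd i C.H x) (sphere (0 : E n) 1) := ((smH C).pd i).contOn
    have cab : ContinuousOn (fun x => |V (pt 0 (Y C.H x L))| * sg C.H L x) (sphere (0 : E n) 1) :=
      ((cV L hL).abs).mul (cs L)
    have habs : SI (fun x => |V (pt 0 (Y C.H x L))| * sg C.H L x) ≤ M + (N + 1) := by
      have h1 := neg_bdd hS hV hL hL0 hfar
      have c3 : ContinuousOn (fun x => (|V (pt 0 (Y C.H x L))| - V (pt 0 (Y C.H x L))) *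
        sg C.H L x) (sphere (0 : E n) 1) := (((cV L hL).abs).sub (cV L hL)).mul (cs L)
      have e : SI (fun x => |V (pt 0 (Y C.H x L))| * sg C.H L x) = A L +
          SI (fun x => (|V (pt 0 (Y C.H x L))| - V (pt 0 (Y C.H x L))) * sg C.H L x) := by
        rw [hA]
        simp only
        rw [← SI_add c1 c3]
        exact SI_congr fun x _ => by ring
      rw [e]
      have h2 := hAM L hL
      linarith only [h1, h2]
    have hb : ∀ x : E n, ‖x‖ = 1 → |pd i C.H x * (V (pt 0 (Y C.H x L)) * sg C.H L x)| ≤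
        G * (|V (pt 0 (Y C.H x L))| * sg C.H L x) := by
      intro x hx
      rw [abs_mul, abs_mul, abs_of_nonneg (hsg L hL x hx)]
      exact mul_le_mul_of_nonneg_right (hgi x hx)
        (mul_nonneg (abs_nonneg _) (hsg L hL x hx))
    have cG : ContinuousOn (fun x => G * (|V (pt 0 (Y C.H x L))| * sg C.H L x))
      (sphere (0 : E n) 1) := continuousOn_const.mul cab
    have cl : ContinuousOn (fun x => pd i C.H x * (V (pt 0 (Y C.H x L)) * sg C.H L x))
      (sphere (0 : E n) 1) := cg.mul c1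
    have hup := SI_mono cl cG fun x hx => (abs_le.mp (hb x hx)).2
    have hlo := SI_mono cG.neg cl fun x hx => (abs_le.mp (hb x hx)).1
    have e1 : SI (fun x => G * (|V (pt 0 (Y C.H x L))| * sg C.H L x)) =
        G * SI (fun x => |V (pt 0 (Y C.H x L))| * sg C.H L x) := SI_cmul _ _
    have e2 : SI (fun x => -(G * (|V (pt 0 (Y C.H x L))| * sg C.H L x))) =
        - (G * SI (fun x => |V (pt 0 (Y C.H x L))| * sg C.H L x)) := by rw [SI_neg, SI_cmul]
    rw [e1] at hup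
    have hlo' : - (G * SI (fun x => |V (pt 0 (Y C.H x L))| * sg C.H L x)) ≤
        SI (fun x => pd i C.H x * (V (pt 0 (Y C.H x L)) * sg C.H L x)) := by
      rw [← e2]; exact hlo
    have h5 := mul_le_mul_of_nonneg_left habs hG0
    rw [abs_le]
    constructor <;> linarith only [hup, hlo', h5]
  -- splitting of `q`
  have hsplit : ∀ L, L0 ≤ L → q L = SI (fun x => pd i C.H x * (V (pt 0 (Y C.H x L)) * sg C.H L x)) +
      L * p L := by
    intro L hL
    have c1 := cVs L hL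
    have cg : ContinuousOn (fun x => pd i C.H x) (sphere (0 : E n) 1) := ((smH C).pd i).contOn
    have c2 : ContinuousOn (fun x => pd i C.H x * (V (pt 0 (Y C.H x L)) * sg C.H L x))
      (sphere (0 : E n) 1) := cg.mul c1
    have c3 : ContinuousOn (fun x => L * (V (pt 0 (Y C.H x L)) * sg C.H L x * x i))
      (sphere (0 : E n) 1) := continuousOn_const.mul (c1.mul (cC i))
    rw [hq, hp]
    simp only
    rw [← SI_cmul, ← SI_add c2 c3]
    refine SI_congr fun x _ => ?_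
    rw [Y_apply]; ring
  -- the limit
  rw [Metric.tendsto_atTop]
  intro ε hε
  obtain ⟨L1', hL1'⟩ := (Metric.tendsto_atTop.mp hM) (ε / 8) (by positivity)
  set L1 := max L0 L1' with hL1
  have hL01 : L0 ≤ L1 := le_max_left _ _
  have hAL1 : M - A L1 < ε / 8 := by
    have := hL1' L1 (le_max_right _ _)
    rw [Real.dist_eq] at this
    have := (abs_lt.mp this).1
    linarith only [this]
  set B := |q L1| + K with hB
  refine ⟨max (max L1 G) (4 * (|B| + 1) / ε), fun L hL => ?_⟩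
  have hLL1 : L1 ≤ L := (le_max_left _ _).trans ((le_max_left _ _).trans hL)
  have hLG : G ≤ L := (le_max_right _ _).trans ((le_max_left _ _).trans hL)
  have hLB : 4 * (|B| + 1) / ε ≤ L := (le_max_right _ _).trans hL
  have hLp : 0 < L := hL0.trans_le (hL01.trans hLL1)
  rw [Real.dist_eq, sub_zero]
  have k1 := key L1 L hL01 hLL1
  have k2 := hsplit L (hL01.trans hLL1)
  have k3 := herr L (hL01.trans hLL1)
  have k4 := hAM L (hL01.trans hLL1)
  have k5 : L * |p L| ≤ B + (L + G) * (A L - A L1) := by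
    have e : L * p L = (q L - q L1) + q L1 -
        SI (fun x => pd i C.H x * (V (pt 0 (Y C.H x L)) * sg C.H L x)) := by
      rw [k2]; ring
    have e2 : L * |p L| = |L * p L| := by rw [abs_mul, abs_of_pos hLp]
    rw [e2, e]
    refine (abs_sub _ _).trans ?_
    have := abs_add_le (q L - q L1) (q L1)
    linarith only [this, k1, k3]
  have k6 : (L + G) * (A L - A L1) ≤ (2 * L) * (ε / 8) := by
    refine mul_le_mul ?_ ?_ ?_ (by positivity)
    · linarith only [hLG]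
    · linarith only [k4, hAL1]
    · have := hAm L1 L hL01 hLL1
      linarith only [this]
  have k7 : B ≤ L * (ε / 4) := by
    rw [div_le_iff₀ hε] at hLB
    have := le_abs_self B
    linarith only [hLB, this]
  have k8 : L * |p L| < L * ε := by
    have : 0 < L * ε := by positivity
    linarith only [k5, k6, k7, this]
  exact lt_of_mul_lt_mul_left k8 hLp.le

end Vale.Agent.P366.KSN
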