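import Vale.Agent.P366.H208.N.X3c
import Vale.Agent.P366.H208.N.ToDat
import Vale.Agent.P366.H381.NH0
import Vale.Agent.P366.H222.N.X0e
import Vale.Agent.P366.H296.N.Par

/-! Kerr-Schild exteriors in all dimensions: the Piola identity on a level set. -/

open MeasureTheory Metric Filter Topology Set
open scoped ContDiff ENNReal

noncomputable section
namespace Vale.Agent.P366.KSN

open Vale.Agent.P366 (pd E)
open Vale.Agent.P366.H353.N
open Vale.Agent.P366.Kerr (NullCone IsSlice Region Psi pt sp nul ksG indG indK DECat)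

variable {n : ℕ} {C : NullCone n} {lam f : E n → ℝ} {V : E (n + 1) → ℝ} {D : Stmt.Exterior n}
  {x y z : E n} {s t : ℝ}

/-- the data of the level set `s` -/
def datS (C : NullCone n) {s : ℝ} (hs : ∀ x : E n, ‖x‖ = 1 → C.U x ≤ s) : Dat n where
  H := C.H
  U := fun _ => s
  smH := smH C
  smU := Sm.const s
  homH := homH C
  homU := Hom.const s
  pos := fun x hx v hv h0 => by
    have h := posC C hx v hv h0
    have h1 : 0 ≤ ∑ i, v i ^ 2 := Finset.sum_nonneg fun i _ => sq_nonneg _
    have h2 := mul_le_mul_of_nonneg_right (hs x hx) h1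
    linarith only [h, h2]

/-- the point of the level set in the direction of `x`, of degree zero -/
def gs (C : NullCone n) (s : ℝ) (x : E n) : E n := X3.zz C.H (fun _ => s) x

lemma gs_one (hx : ‖x‖ = 1) : gs C s x = Y C.H x s := by
  ext i
  unfold gs
  rw [X3.zz_apply, X3.nv_one hx]
  rfl

lemma sm_gs (i : Fin n) : Sm fun y => gs C s y i :=
  ((smH C).pd i).add ((Sm.const s).mul (X3.sm_nv i))

lemma gs_cd (hx : x ≠ 0) : ContDiffAt ℝ ∞ (gs C s) x := by
  rw [contDiffAt_euclidean]
  exact fun i => sm_gs i x hx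

lemma gs_diff (hx : x ≠ 0) : DifferentiableAt ℝ (gs C s) x := (gs_cd hx).differentiableAt (by simp)

lemma gs_smul (hx : x ≠ 0) {r : ℝ} (hr : 0 < r) : gs C s (r • x) = gs C s x := by
  ext i
  unfold gs
  rw [X3.zz_apply, X3.zz_apply]
  have h1 := ((homH C).pd (smH C) i) x hx r hr
  have h3 := X3.hom_nv i x hx r hr
  rw [h1, h3]
  norm_num

lemma gs_unit (hx : x ≠ 0) : gs C s x = Y C.H (‖x‖⁻¹ • x) s := by
  rw [← gs_one (X3.unit_of hx)]
  exact (gs_smul hx (inv_pos.mpr (norm_pos_iff.mpr hx))).symm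

lemma sm_comp_gs {F : E n → ℝ} (hF : ∀ x : E n, ‖x‖ = 1 → ContDiffAt ℝ ∞ F (Y C.H x s)) :
    Sm fun x => F (gs C s x) := fun x hx => by
  have h : ContDiffAt ℝ ∞ F (gs C s x) := by
    rw [gs_unit hx]; exact hF _ (X3.unit_of hx)
  exact h.comp x (gs_cd hx)

lemma hom_comp_gs {F : E n → ℝ} : Hom 0 fun x => F (gs C s x) := fun x hx r hr => by
  show F (gs C s (r • x)) = _
  rw [gs_smul hx hr]
  simp

lemma pd_comp_gs {F : E n → ℝ} (hx : ‖x‖ = 1) (hF : DifferentiableAt ℝ F (Y C.H x s))
    (i : Fin n) :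
    pd i (fun y => F (gs C s y)) x = ∑ k, Ws C.H s x i k * pd k F (Y C.H x s) := by
  have h0 := ne_zero_of_one hx
  rw [← gs_one hx] at hF
  unfold Vale.Agent.P366.pd
  have h := hF.hasFDerivAt.comp x (gs_diff h0).hasFDerivAt
  rw [show (fun y => F (gs C s y)) = F ∘ gs C s from rfl, h.fderiv]
  rw [ContinuousLinearMap.comp_apply, Vale.Agent.P366.fderiv_eq_sum_pd]
  refine Finset.sum_congr rfl fun k _ => ?_
  have h1 : HasFDerivAt (fun y => gs C s y k)
      ((EuclideanSpace.proj k : E n →L[ℝ] ℝ).comp (fderiv ℝ (gs C s) x)) x :=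
    (EuclideanSpace.proj k : E n →L[ℝ] ℝ).hasFDerivAt.comp x (gs_diff h0).hasFDerivAt
  have h2 : pd i (fun y => gs C s y k) x = Ws C.H s x i k := by
    have e : (fun y => gs C s y k) = fun y => pd k C.H y + s * X3.nv k y := rfl
    rw [e, pd_add' ((smH C).pd k) ((Sm.const s).mul (X3.sm_nv k)) h0,
      pd_cmul' (X3.sm_nv k) s h0, X3.pd_nv hx]
    rfl
  have h3 : (fderiv ℝ (gs C s) x (EuclideanSpace.single i 1)) k = Ws C.H s x i k := by
    rw [← h2]
    unfold Vale.Agent.P366.pd
    rw [h1.fderiv]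
    rfl
  rw [h3, gs_one hx]
  rfl

/-- the divergence of the cofactor matrix -/
lemma divA_level (C : NullCone n) (hs : ∀ x : E n, ‖x‖ = 1 → C.U x ≤ s) (hx : ‖x‖ = 1)
    (g : Fin n → ℝ) :
    ∑ j, (∑ i, pd i (fun y => (datS C hs).A y i j) x) * g j =
      - (sg C.H s x * ∑ j, x j * g j) := by
  have h0 := ne_zero_of_one hx
  set D := datS C hs with hD
  have hb : ∀ i, D.b x i = 0 := by
    intro i
    unfold Dat.b
    refine Finset.sum_eq_zero fun j _ => ?_
    have : pd j D.U x = 0 := Vale.Agent.P366.pd_const s x j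
    rw [this]
    ring
  -- the normal part
  have hn : ∑ j, (∑ i, pd i (fun y => D.A y i j) x) * x j = - sg C.H s x := by
    have h1 : ∀ i, ∑ j, pd i (fun y => D.A y i j) x * x j = - D.A x i i := by
      intro i
      have e : pd i (fun y => ∑ j, D.A y i j * y j) x = 0 := by
        rw [pd_congr' (h := fun y => ∑ j, D.A y i j * y j) (f := fun _ => 0)
          (fun y hy => D.A_x hy i) h0, Vale.Agent.P366.pd_const]
      rw [pd_sum' _ (fun j => (D.smA i j).mul (Sm.coord j)) h0] at e
      have e2 : ∀ j, pd i (fun y => D.A y i j * y j) x =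
          D.A x i j * kd i j + pd i (fun y => D.A y i j) x * x j := fun j => by
        rw [pd_mul' (D.smA i j) (Sm.coord j) h0, pd_coord']
      rw [Finset.sum_congr rfl fun j _ => e2 j, Finset.sum_add_distrib] at e
      have e3 : ∑ j, D.A x i j * kd i j = D.A x i i := by simp [kd]
      linarith only [e, e3]
    have h2 : ∑ j, (∑ i, pd i (fun y => D.A y i j) x) * x j = ∑ i, - D.A x i i := by
      simp only [← h1, Finset.sum_mul]
      exact Finset.sum_comm
    have h3 := X3.tr_A D hx
    rw [h2, Finset.sum_neg_distrib]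
    have h4 : ∑ i, D.A x i i = H353.N.tr (D.A x) := rfl
    rw [h4, h3]
    rfl
  -- the tangential part
  have hxx := X3.BdN.sum_xx hx
  set c := ∑ j, x j * g j with hc
  have ht := D.divA hx (fun j => g j - c * x j) (by
    have : ∀ j, x j * (g j - c * x j) = x j * g j - c * (x j * x j) := fun j => by ring
    simp only [this, Finset.sum_sub_distrib, ← Finset.mul_sum, hxx, ← hc]
    ring)
  have hr : ∑ j, (H353.N.tr (D.A x) * D.b x j - ∑ k, D.A x j k * D.b x k) * (g j - c * x j) = 0 := by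
    refine Finset.sum_eq_zero fun j _ => ?_
    simp only [hb, mul_zero, Finset.sum_const_zero, sub_zero, zero_mul]
  rw [hr] at ht
  have e : ∑ j, (∑ i, pd i (fun y => D.A y i j) x) * (g j - c * x j) =
      ∑ j, (∑ i, pd i (fun y => D.A y i j) x) * g j -
      c * ∑ j, (∑ i, pd i (fun y => D.A y i j) x) * x j := by
    rw [Finset.mul_sum, ← Finset.sum_sub_distrib]
    exact Finset.sum_congr rfl fun j _ => by ring
  rw [e, hn] at ht
  linarith only [ht]

/-- The Piola identity on the level set `s`. -/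
theorem piola_Y [Fact (3 ≤ n)] (C : NullCone n) (hs : ∀ x : E n, ‖x‖ = 1 → C.U x ≤ s)
    {G : Fin n → E n → ℝ}
    (hG : ∀ (j : Fin n) (x : E n), ‖x‖ = 1 → ContDiffAt ℝ ∞ (G j) (Y C.H x s)) :
    SI (fun x => dts C.H s x * ∑ j, ∑ k, pr x j k * pd k (G j) (Y C.H x s)) =
      SI (fun x => sg C.H s x * ∑ j, x j * G j (Y C.H x s)) := by
  set D := datS C hs with hD
  have hGs : ∀ j, Sm fun x => G j (gs C s x) := fun j => sm_comp_gs (hG j)
  have sF : ∀ i, Sm fun x => ∑ j, D.A x i j * G j (gs C s x) := fun i =>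
    Sm.sum _ fun j => (D.smA i j).mul (hGs j)
  have h := SI_div (k := 0) (F := fun i x => ∑ j, D.A x i j * G j (gs C s x)) sF
    (fun i => Hom.sum _ fun j => ((D.homA i j).mul hom_comp_gs).cast (by norm_num))
  have e1 : SI (fun x => ∑ i, (∑ j, D.A x i j * G j (gs C s x)) * x i) = 0 := by
    have : SI (fun x => ∑ i, (∑ j, D.A x i j * G j (gs C s x)) * x i) =
        SI (fun _ : E n => (0 : ℝ)) := SI_congr fun x hx => by
      have h0 := ne_zero_of_one hx
      simp only [Finset.sum_mul]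
      rw [Finset.sum_comm]
      refine Finset.sum_eq_zero fun j _ => ?_
      have h3 : ∑ i, D.A x i j * G j (gs C s x) * x i =
          G j (gs C s x) * ∑ i, D.A x j i * x i := by
        rw [Finset.mul_sum]
        exact Finset.sum_congr rfl fun i _ => by rw [D.A_symm x i j]; ring
      rw [h3, D.A_x h0 j, mul_zero]
    rw [this, SI_const, mul_zero]
  rw [e1, mul_zero] at h
  -- the divergence
  have e2 : ∀ x : E n, ‖x‖ = 1 → ∑ i, pd i (fun x => ∑ j, D.A x i j * G j (gs C s x)) x =
      dts C.H s x * (∑ j, ∑ k, pr x j k * pd k (G j) (Y C.H x s)) -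
      sg C.H s x * ∑ j, x j * G j (Y C.H x s) := by
    intro x hx
    have h0 := ne_zero_of_one hx
    have k1 : ∀ i, pd i (fun x => ∑ j, D.A x i j * G j (gs C s x)) x =
        ∑ j, D.A x i j * (∑ k, Ws C.H s x i k * pd k (G j) (Y C.H x s)) +
        ∑ j, pd i (fun y => D.A y i j) x * G j (Y C.H x s) := by
      intro i
      rw [pd_sum' _ (fun j => (D.smA i j).mul (hGs j)) h0, ← Finset.sum_add_distrib]
      refine Finset.sum_congr rfl fun j _ => ?_
      rw [pd_mul' (D.smA i j) (hGs j) h0,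
        pd_comp_gs hx ((hG j x hx).differentiableAt (by simp)), gs_one hx]
    have k2 : ∑ i, ∑ j, pd i (fun y => D.A y i j) x * G j (Y C.H x s) =
        - (sg C.H s x * ∑ j, x j * G j (Y C.H x s)) := by
      rw [← divA_level C hs hx, Finset.sum_comm]
      exact Finset.sum_congr rfl fun j _ => by rw [Finset.sum_mul]
    have k3 : ∑ i, ∑ j, D.A x i j * (∑ k, Ws C.H s x i k * pd k (G j) (Y C.H x s)) =
        dts C.H s x * ∑ j, ∑ k, pr x j k * pd k (G j) (Y C.H x s) := by
      have hdt : D.dt x = dts C.H s x := X3.dt_one D hx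
      have hW : ∀ i k, Ws C.H s x i k = X3.Wu D.H D.U x i k := fun _ _ => rfl
      rw [Finset.sum_comm, Finset.mul_sum]
      refine Finset.sum_congr rfl fun j _ => ?_
      simp only [Finset.mul_sum]
      rw [Finset.sum_comm]
      refine Finset.sum_congr rfl fun k _ => ?_
      have h5 := X3.AW D hx j k
      rw [hdt] at h5
      rw [← mul_assoc, ← h5, Finset.sum_mul]
      exact Finset.sum_congr rfl fun i _ => by rw [D.A_symm x i j, hW]; ring
    rw [Finset.sum_congr rfl fun i _ => k1 i, Finset.sum_add_distrib, k2, k3]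
    ring
  rw [SI_congr e2] at h
  have c1 : Sm fun x => ∑ j, ∑ k, X3.nv j x * X3.nv k x * pd k (G j) (gs C s x) :=
    Sm.sum _ fun j => Sm.sum _ fun k => ((X3.sm_nv j).mul (X3.sm_nv k)).mul
      (sm_comp_gs (F := pd k (G j)) fun x hx => pd_contDiffAt (hG j x hx) k)
  have c2 : Sm fun x => ∑ j, pd j (G j) (gs C s x) :=
    Sm.sum _ fun j => sm_comp_gs (F := pd j (G j)) fun x hx => pd_contDiffAt (hG j x hx) j
  have c3 : ContinuousOn (fun x => dts C.H s x * ∑ j, ∑ k, pr x j k * pd k (G j) (Y C.H x s))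
      (sphere (0 : E n) 1) := by
    refine (dts_cont C (Sm.const s)).mul ((c2.sub c1).contOn.congr fun x hx => ?_)
    have hx1 : ‖x‖ = 1 := by simpa using hx
    simp only [gs_one hx1, X3.nv_one hx1]
    rw [← Finset.sum_sub_distrib]
    refine Finset.sum_congr rfl fun j _ => ?_
    have : ∑ k, kd j k * pd k (G j) (Y C.H x s) = pd j (G j) (Y C.H x s) := by simp [kd]
    rw [← this, ← Finset.sum_sub_distrib]
    refine Finset.sum_congr rfl fun k _ => ?_
    unfold pr
    ring
  have c4 : ContinuousOn (fun x => sg C.H s x * ∑ j, x j * G j (Y C.H x s))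
      (sphere (0 : E n) 1) := by
    have c5 : Sm fun x => ∑ j, x j * G j (gs C s x) := Sm.sum _ fun j => (Sm.coord j).mul (hGs j)
    refine (sg_cont C (Sm.const s)).mul (c5.contOn.congr fun x hx => ?_)
    have hx1 : ‖x‖ = 1 := by simpa using hx
    simp only [gs_one hx1]
  rw [SI_sub c3 c4] at h
  linarith only [h]

end Vale.Agent.P366.KSN
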