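import Vale.Agent.P366.H296.N.X4b
import Vale.Agent.P366.H896.N.Ds

/-! Kerr-Schild exteriors in all dimensions: the monotonicity along the null rays. -/

open MeasureTheory Metric Filter Topology Set
open scoped ContDiff ENNReal

noncomputable section
namespace Vale.Agent.P366.KSN

open Vale.Agent.P366 (pd E)
open Vale.Agent.P366.H353.N
open Vale.Agent.P366.Kerr (NullCone IsSlice Region Psi pt sp nul ksG indG indK DECat)

variable {n : ℕ} {C : NullCone n} {lam f : E n → ℝ} {V : E (n + 1) → ℝ} {D : Stmt.Exterior n}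
  {x y z : E n} {s t : ℝ}

lemma hasDerivAt_ptY (H : E n → ℝ) (x : E n) (σ s : ℝ) :
    HasDerivAt (fun s => pt (σ * s) (Y H x s)) (pt σ x) s := by
  have e : (fun s => pt (σ * s) (Y H x s)) = fun s : ℝ => pt 0 (Y H x 0) + s • pt σ x := by
    funext s
    ext j
    refine Fin.cases ?_ (fun k => ?_) j
    · simp [pt, mul_comm]
    · simp [pt, Y]
  rw [e]
  have h3 := ((hasDerivAt_id s).smul_const (pt σ x)).const_add (pt 0 (Y H x 0))
  rw [one_smul] at h3
  exact h3

lemma hasDerivAt_VY {H : E n → ℝ} {σ : ℝ}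
    (hV : DifferentiableAt ℝ V (pt (σ * s) (Y H x s))) :
    HasDerivAt (fun s => V (pt (σ * s) (Y H x s)))
      (σ * pd 0 V (pt (σ * s) (Y H x s)) +
        ∑ j, x j * pd j.succ V (pt (σ * s) (Y H x s))) s := by
  have h := hV.hasFDerivAt.comp_hasDerivAt s (hasDerivAt_ptY H x σ s)
  rw [Vale.Agent.P366.fderiv_eq_sum_pd, Fin.sum_univ_succ] at h
  exact h

theorem mono_s (hS : IsSlice C lam V f D)
    (hV : ∀ p ∈ Region lam f D, ContDiffAt ℝ ∞ V p ∧ DECat (ksG lam V) (nul lam) p)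
    (hx : ‖x‖ = 1) {s s' : ℝ} (hs : C.U x ≤ s) (hs' : s ≤ s') :
    V (pt (-s) (Y C.H x s)) * sg C.H s x ≤ V (pt (-s') (Y C.H x s')) * sg C.H s' x := by
  have hd : ∀ r ∈ Icc s s', HasDerivAt (fun r => V (pt (-1 * r) (Y C.H x r)) * sg C.H r x)
      ((-1 * pd 0 V (pt (-1 * r) (Y C.H x r)) +
        ∑ j, x j * pd j.succ V (pt (-1 * r) (Y C.H x r))) * sg C.H r x +
        V (pt (-1 * r) (Y C.H x r)) * kp C.H r x) r := by
    intro r hr
    have hm := (hV _ (mem_region' hS hx (hs.trans hr.1) le_rfl (f_ge hS hx (hs.trans hr.1)))).1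
    have e : -1 * r = - r := by ring
    refine (hasDerivAt_VY ?_).mul (hasDerivAt_sg C hx (hs.trans hr.1))
    rw [e]
    exact hm.differentiableAt (by simp)
  have hm : MonotoneOn (fun r => V (pt (-1 * r) (Y C.H x r)) * sg C.H r x) (Icc s s') := by
    refine monotoneOn_of_deriv_nonneg (convex_Icc s s')
      (fun r hr => (hd r hr).continuousAt.continuousWithinAt) ?_ ?_
    · intro r hr
      rw [interior_Icc] at hr
      exact (hd r (Ioo_subset_Icc_self hr)).differentiableAt.differentiableWithinAt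
    · intro r hr
      rw [interior_Icc] at hr
      rw [(hd r (Ioo_subset_Icc_self hr)).deriv]
      have h1 := ineq_a hS hV hx (hs.trans_lt hr.1) le_rfl (f_ge hS hx (hs.trans hr.1.le))
      rw [← kp_eq hS hx (hs.trans hr.1.le)] at h1
      have e : -1 * r = - r := by ring
      rw [e]
      linarith only [h1]
  have h := hm (left_mem_Icc.mpr hs') (right_mem_Icc.mpr hs') hs'
  simp only [neg_one_mul] at h
  exact h

/-! ### level sets of the slice -/

/-- the sum of the two inequalities, far out on the slice -/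
lemma ineq_ab (hS : IsSlice C lam V f D)
    (hV : ∀ p ∈ Region lam f D, ContDiffAt ℝ ∞ V p ∧ DECat (ksG lam V) (nul lam) p)
    (hx : ‖x‖ = 1) (hs : C.U x < s) (h0 : 0 ≤ s) (hf : f (Y C.H x s) = 0) :
    zf C (fun z => V (pt 0 z)) s x ≤
      (∑ j, x j * pd j.succ V (pt 0 (Y C.H x s))) * sg C.H s x +
        V (pt 0 (Y C.H x s)) * kp C.H s x := by
  have h1 := ineq_a hS hV hx hs (t := 0) (by linarith only [h0]) (by rw [hf])
  have h2 := ineq_b hS hV hx hs (t := 0) (by linarith only [h0]) (by rw [hf])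
  rw [← kp_eq hS hx hs.le] at h1
  linarith only [h1, h2]

lemma hasDerivAt_V0Y {H : E n → ℝ} (hV : DifferentiableAt ℝ V (pt 0 (Y H x s))) :
    HasDerivAt (fun s => V (pt 0 (Y H x s)))
      (∑ j, x j * pd j.succ V (pt 0 (Y H x s))) s := by
  have h := hasDerivAt_VY (V := V) (H := H) (x := x) (s := s) (σ := 0)
    (by rw [zero_mul]; exact hV)
  simp only [zero_mul, zero_add] at h
  exact h

lemma cY2 (C : NullCone n) (a b : ℝ) :
    ContinuousOn (fun p : ℝ × E n => Y C.H p.2 p.1) (Icc a b ×ˢ sphere 0 1) := by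
  have h : ContinuousOn (fun p : ℝ × E n => Y C.H p.2 0 + p.1 • p.2) (Icc a b ×ˢ sphere 0 1) :=
    ((cY C 0).comp continuousOn_snd fun p hp => hp.2).add
      (continuous_fst.smul continuous_snd).continuousOn
  refine h.congr fun p _ => ?_
  ext i
  simp [Y]

lemma cYF2 {F : E n → ℝ} {a b : ℝ}
    (hF : ∀ s ∈ Icc a b, ∀ x : E n, ‖x‖ = 1 → ContinuousAt F (Y C.H x s)) :
    ContinuousOn (fun p : ℝ × E n => F (Y C.H p.2 p.1)) (Icc a b ×ˢ sphere 0 1) := fun p hp =>
  ContinuousAt.comp_continuousWithinAt (g := F) (f := fun p : ℝ × E n => Y C.H p.2 p.1) (x := p)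
    (hF p.1 hp.1 p.2 (by simpa using hp.2)) (cY2 C a b p hp)

/-- smoothness of `V` on the level sets of the slice -/
lemma V_level (hS : IsSlice C lam V f D)
    (hV : ∀ p ∈ Region lam f D, ContDiffAt ℝ ∞ V p ∧ DECat (ksG lam V) (nul lam) p)
    {L : ℝ} (h0 : 0 ≤ L) (hfar : ∀ x : E n, ‖x‖ = 1 → C.U x < L ∧ f (Y C.H x L) = 0)
    (hx : ‖x‖ = 1) : ContDiffAt ℝ ∞ V (pt 0 (Y C.H x L)) := by
  obtain ⟨a1, a2⟩ := hfar x hx
  exact (hV _ (mem_region' hS hx a1.le (by linarith only [h0]) (by rw [a2]))).1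

/-- the weighted mass function is nondecreasing -/
theorem weighted_mono [Fact (3 ≤ n)] (hS : IsSlice C lam V f D)
    (hV : ∀ p ∈ Region lam f D, ContDiffAt ℝ ∞ V p ∧ DECat (ksG lam V) (nul lam) p)
    {L1 L2 B σ : ℝ} (h12 : L1 ≤ L2) (i : Fin n) (h0 : 0 < L1)
    (hfar : ∀ L, L1 ≤ L → ∀ x : E n, ‖x‖ = 1 → C.U x < L ∧ f (Y C.H x L) = 0)
    (hB : ∀ s ∈ Icc L1 L2, ∀ x : E n, ‖x‖ = 1 → 0 ≤ B + σ * Y C.H x s i) :
    SI (fun x => (B + σ * Y C.H x L1 i) * (V (pt 0 (Y C.H x L1)) * sg C.H L1 x)) ≤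
      SI (fun x => (B + σ * Y C.H x L2 i) * (V (pt 0 (Y C.H x L2)) * sg C.H L2 x)) := by
  have hVs : ∀ s ∈ Icc L1 L2, ∀ x : E n, ‖x‖ = 1 → ContDiffAt ℝ ∞ V (pt 0 (Y C.H x s)) :=
    fun s hs x hx => V_level hS hV (h0.le.trans hs.1) (hfar s hs.1) hx
  have cYi : ContinuousOn (fun p : ℝ × E n => Y C.H p.2 p.1 i) (Icc L1 L2 ×ˢ sphere 0 1) :=
    (EuclideanSpace.proj (𝕜 := ℝ) i).continuous.comp_continuousOn (cY2 C L1 L2)
  have cw : ContinuousOn (fun p : ℝ × E n => B + σ * Y C.H p.2 p.1 i) (Icc L1 L2 ×ˢ sphere 0 1) :=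
    continuousOn_const.add (continuousOn_const.mul cYi)
  have cv : ContinuousOn (fun p : ℝ × E n => V (pt 0 (Y C.H p.2 p.1)))
      (Icc L1 L2 ×ˢ sphere 0 1) :=
    cYF2 (F := fun z => V (pt 0 z)) fun s hs x hx => (X5.cd_pt (hVs s hs x hx)).continuousAt
  have cvd : ContinuousOn (fun p : ℝ × E n => ∑ j, p.2 j * pd j.succ V (pt 0 (Y C.H p.2 p.1)))
      (Icc L1 L2 ×ˢ sphere 0 1) := by
    refine continuousOn_finsetSum _ fun j _ => ContinuousOn.mul ?_ ?_
    · exact ((EuclideanSpace.proj (𝕜 := ℝ) j).continuous.comp continuous_snd).continuousOn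
    · exact cYF2 (F := fun z => pd j.succ V (pt 0 z)) fun s hs x hx =>
        (X5.cd_pt (pd_contDiffAt (hVs s hs x hx) j.succ)).continuousAt
  have csg := sg_cont2 C (S := Icc L1 L2)
  have hU : ∀ x : E n, ‖x‖ = 1 → C.U x ≤ L1 := fun x hx => (hfar L1 le_rfl x hx).1.le
  have ckp := kp_cont2 C (b := L2) hU
  refine H296.N.SI_mono_param
    (g := fun s x => (B + σ * Y C.H x s i) * (V (pt 0 (Y C.H x s)) * sg C.H s x))
    (g' := fun s x => σ * x i * (V (pt 0 (Y C.H x s)) * sg C.H s x) +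
      (B + σ * Y C.H x s i) * ((∑ j, x j * pd j.succ V (pt 0 (Y C.H x s))) * sg C.H s x +
        V (pt 0 (Y C.H x s)) * kp C.H s x)) h12 ?_ ?_ ?_ ?_
  · exact cw.mul (cv.mul csg)
  · refine ContinuousOn.add (ContinuousOn.mul ?_ (cv.mul csg))
      (cw.mul ((cvd.mul csg).add (cv.mul ckp)))
    exact (continuous_const.mul
      ((EuclideanSpace.proj (𝕜 := ℝ) i).continuous.comp continuous_snd)).continuousOn
  · intro s hs x hx
    have hs' := Ioo_subset_Icc_self hs
    have k1 := hasDerivAt_V0Y (H := C.H) ((hVs s hs' x hx).differentiableAt (by simp))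
    have k2 := hasDerivAt_sg C hx ((hU x hx).trans hs.1.le)
    have k3 : HasDerivAt (fun s => B + σ * Y C.H x s i) (σ * x i) s := by
      have h3 : HasDerivAt (fun s : ℝ => pd i C.H x + s * x i) (x i) s := by
        have h4 := ((hasDerivAt_id s).mul_const (x i)).const_add (pd i C.H x)
        rw [one_mul] at h4
        exact h4
      exact (h3.const_mul σ).const_add B
    exact k3.mul (k1.mul k2)
  · intro s hs
    have hs' := Ioo_subset_Icc_self hs
    have hfs := hfar s hs'.1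
    have h0s : 0 ≤ s := h0.le.trans hs'.1
    have hUs : ∀ x : E n, ‖x‖ = 1 → C.U x ≤ s := fun x hx => (hfs x hx).1.le
    have hW : ∀ x : E n, ‖x‖ = 1 → ContDiffAt ℝ ∞ (fun z => V (pt 0 z)) (Y C.H x s) :=
      fun x hx => X5.cd_pt (hVs s hs' x hx)
    have c1 : ContinuousOn (fun x : E n => B + σ * Y C.H x s i) (sphere 0 1) :=
      H296.N.slice_cont (g := fun s x => B + σ * Y C.H x s i) cw hs'
    have c2 : ContinuousOn (fun x : E n => V (pt 0 (Y C.H x s)) * sg C.H s x) (sphere 0 1) :=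
      H296.N.slice_cont (g := fun s x => V (pt 0 (Y C.H x s)) * sg C.H s x) (cv.mul csg) hs'
    have c3 : ContinuousOn (fun x : E n => (∑ j, x j * pd j.succ V (pt 0 (Y C.H x s))) *
        sg C.H s x + V (pt 0 (Y C.H x s)) * kp C.H s x) (sphere 0 1) :=
      H296.N.slice_cont (g := fun s x => (∑ j, x j * pd j.succ V (pt 0 (Y C.H x s))) *
        sg C.H s x + V (pt 0 (Y C.H x s)) * kp C.H s x) ((cvd.mul csg).add (cv.mul ckp)) hs'
    have cYs : ContinuousOn (fun x : E n => Y C.H x s i) (sphere 0 1) :=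
      H296.N.slice_cont (g := fun s x => Y C.H x s i) cYi hs'
    have cz := zf_cont hW
    have id1 := SI_z hUs hW
    have id2 := SI_yz hUs hW i
    have hle : SI (fun x => σ * (x i * (V (pt 0 (Y C.H x s)) * sg C.H s x)) +
        (B * zf C (fun z => V (pt 0 z)) s x +
          σ * (Y C.H x s i * zf C (fun z => V (pt 0 z)) s x))) ≤
        SI (fun x => σ * x i * (V (pt 0 (Y C.H x s)) * sg C.H s x) +
          (B + σ * Y C.H x s i) * ((∑ j, x j * pd j.succ V (pt 0 (Y C.H x s))) * sg C.H s x +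
          V (pt 0 (Y C.H x s)) * kp C.H s x)) := by
      refine SI_mono ?_ ?_ fun x hx => ?_
      · exact (continuousOn_const.mul ((cC i).mul c2)).add
          ((continuousOn_const.mul cz).add (continuousOn_const.mul (cYs.mul cz)))
      · exact ((continuousOn_const.mul (cC i)).mul c2).add (c1.mul c3)
      · obtain ⟨a1, a2⟩ := hfs x hx
        have b3 := mul_le_mul_of_nonneg_left (ineq_ab hS hV hx a1 h0s a2) (hB s hs' x hx)
        linarith only [b3]
    have d1 : ContinuousOn (fun x : E n => x i * (V (pt 0 (Y C.H x s)) * sg C.H s x))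
        (sphere 0 1) := (cC i).mul c2
    have d2 : ContinuousOn (fun x : E n => Y C.H x s i * zf C (fun z => V (pt 0 z)) s x)
        (sphere 0 1) := cYs.mul cz
    have e1 : ContinuousOn (fun x : E n => σ * (x i * (V (pt 0 (Y C.H x s)) * sg C.H s x)))
        (sphere 0 1) := continuousOn_const.mul d1
    have e2 : ContinuousOn (fun x : E n => B * zf C (fun z => V (pt 0 z)) s x) (sphere 0 1) :=
      continuousOn_const.mul cz
    have e3 : ContinuousOn (fun x : E n => σ * (Y C.H x s i * zf C (fun z => V (pt 0 z)) s x))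
        (sphere 0 1) := continuousOn_const.mul d2
    have e23 : ContinuousOn (fun x : E n => B * zf C (fun z => V (pt 0 z)) s x +
        σ * (Y C.H x s i * zf C (fun z => V (pt 0 z)) s x)) (sphere 0 1) := e2.add e3
    rw [SI_add e1 e23, SI_add e2 e3, SI_cmul, SI_cmul, SI_cmul, id1, id2] at hle
    linarith only [hle]

theorem mono_zero [Fact (3 ≤ n)] (hS : IsSlice C lam V f D)
    (hV : ∀ p ∈ Region lam f D, ContDiffAt ℝ ∞ V p ∧ DECat (ksG lam V) (nul lam) p) :
    ∃ L0 : ℝ, ∀ L L', L0 ≤ L → L ≤ L' → SI (fun x => V (pt 0 (Y C.H x L)) * sg C.H L x) ≤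
      SI (fun x => V (pt 0 (Y C.H x L')) * sg C.H L' x) := by
  obtain ⟨L0, hfar⟩ := f_zero_far hS
  refine ⟨max L0 1, fun L L' hL hL' => ?_⟩
  have h1 : 0 < L := one_pos.trans_le ((le_max_right _ _).trans hL)
  have hn : 0 < n := by have := Fact.out (p := 3 ≤ n); omega
  have h := weighted_mono hS hV (B := 1) (σ := 0) hL' ⟨0, hn⟩ h1
    (fun M hM x hx => hfar x M hx ((le_max_left _ _).trans (hL.trans hM)))
    (fun s _ x _ => by norm_num)
  simpa only [zero_mul, add_zero, one_mul] using h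

end Vale.Agent.P366.KSN
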