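import Vale.Agent.P366.H296.N.Pi
import Vale.Agent.P366.H896.N.X5c

/-! Kerr-Schild exteriors in all dimensions: the surface Laplacian on the level sets, and the
monotonicity in time. -/

open MeasureTheory Metric Filter Topology Set
open scoped ContDiff ENNReal

noncomputable section
namespace Vale.Agent.P366.KSN

open Vale.Agent.P366 (pd E)
open Vale.Agent.P366.H353.N
open Vale.Agent.P366.Kerr (NullCone IsSlice Region Psi pt sp nul ksG indG indK DECat)

variable {n : ℕ} {C : NullCone n} {lam f : E n → ℝ} {V : E (n + 1) → ℝ} {D : Stmt.Exterior n}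
  {x y z : E n} {s t : ℝ}

/-! ### continuity -/

lemma cY (C : NullCone n) (s : ℝ) : ContinuousOn (fun x : E n => Y C.H x s) (sphere (0 : E n) 1) :=
  fun x hx => (Y_comp C (Sm.const s)
    (ne_zero_of_one (by simpa using hx))).continuousAt.continuousWithinAt

lemma cYF {F : E n → ℝ} (hF : ∀ x : E n, ‖x‖ = 1 → ContinuousAt F (Y C.H x s)) :
    ContinuousOn (fun x => F (Y C.H x s)) (sphere (0 : E n) 1) := fun x hx =>
  ContinuousAt.comp_continuousWithinAt (g := F) (f := fun x : E n => Y C.H x s)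
    (hF x (by simpa using hx)) (cY C s x hx)

lemma cC (i : Fin n) : ContinuousOn (fun x : E n => x i) (sphere (0 : E n) 1) :=
  (EuclideanSpace.proj (𝕜 := ℝ) i).continuous.continuousOn

lemma cd_ca {F : E n → ℝ} (h : ContDiffAt ℝ ∞ F y) : ContinuousAt F y := h.continuousAt

lemma cd_hs {F : E n → ℝ} (h : ContDiffAt ℝ ∞ F y) (i j : Fin n) :
    ContDiffAt ℝ ∞ (hs F i j) y := pd_contDiffAt (pd_contDiffAt h j) i

/-- the surface Laplacian of `W` times the area density -/
def zf (C : NullCone n) (W : E n → ℝ) (s : ℝ) (x : E n) : ℝ :=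
  dts C.H s x * (lap W (Y C.H x s) - ∑ j, ∑ k, x j * x k * hs W j k (Y C.H x s)) -
    sg C.H s x * ∑ j, x j * pd j W (Y C.H x s)

lemma zf_cont {W : E n → ℝ} (hW : ∀ x : E n, ‖x‖ = 1 → ContDiffAt ℝ ∞ W (Y C.H x s)) :
    ContinuousOn (zf C W s) (sphere (0 : E n) 1) := by
  have c1 : ∀ j k, ContinuousOn (fun x => hs W j k (Y C.H x s)) (sphere (0 : E n) 1) := fun j k =>
    cYF fun x hx => (cd_hs (hW x hx) j k).continuousAt
  have c2 : ∀ j, ContinuousOn (fun x => pd j W (Y C.H x s)) (sphere (0 : E n) 1) := fun j =>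
    cYF fun x hx => (pd_contDiffAt (hW x hx) j).continuousAt
  have c3 : ContinuousOn (fun x => lap W (Y C.H x s)) (sphere (0 : E n) 1) :=
    continuousOn_finsetSum _ fun i _ => c1 i i
  exact ((dts_cont C (Sm.const s)).mul (c3.sub (continuousOn_finsetSum _ fun j _ =>
    continuousOn_finsetSum _ fun k _ => ((cC j).mul (cC k)).mul (c1 j k)))).sub
    ((sg_cont C (Sm.const s)).mul (continuousOn_finsetSum _ fun j _ => (cC j).mul (c2 j)))

/-- the weighted integral of the surface Laplacian -/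
theorem SI_wz [Fact (3 ≤ n)] (hs : ∀ x : E n, ‖x‖ = 1 → C.U x ≤ s) {W φ : E n → ℝ}
    (hW : ∀ x : E n, ‖x‖ = 1 → ContDiffAt ℝ ∞ W (Y C.H x s))
    (hφ : ∀ x : E n, ‖x‖ = 1 → ContDiffAt ℝ ∞ φ (Y C.H x s)) :
    SI (fun x => φ (Y C.H x s) * zf C W s x) =
      - SI (fun x => dts C.H s x * ∑ j, ∑ k, pr x j k *
        (pd k φ (Y C.H x s) * pd j W (Y C.H x s))) := by
  have h := piola_Y C hs (G := fun j y => φ y * pd j W y) fun j x hx =>
    (hφ x hx).mul (pd_contDiffAt (hW x hx) j)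
  have e1 : ∀ x : E n, ‖x‖ = 1 → dts C.H s x * ∑ j, ∑ k, pr x j k *
      pd k (fun y => φ y * pd j W y) (Y C.H x s) =
      dts C.H s x * (∑ j, ∑ k, pr x j k * (pd k φ (Y C.H x s) * pd j W (Y C.H x s))) +
      φ (Y C.H x s) * (dts C.H s x * (lap W (Y C.H x s) -
        ∑ j, ∑ k, x j * x k * H353.N.hs W j k (Y C.H x s))) := by
    intro x hx
    have hφd : DifferentiableAt ℝ φ (Y C.H x s) := (hφ x hx).differentiableAt (by simp)
    have hWd : ∀ j, DifferentiableAt ℝ (pd j W) (Y C.H x s) := fun j =>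
      (pd_contDiffAt (hW x hx) j).differentiableAt (by simp)
    have k1 : ∀ j k, pd k (fun y => φ y * pd j W y) (Y C.H x s) =
        φ (Y C.H x s) * H353.N.hs W k j (Y C.H x s) +
          pd k φ (Y C.H x s) * pd j W (Y C.H x s) := by
      intro j k
      rw [Vale.Agent.P366.pd_mul hφd (hWd j)]
      rfl
    have k2 : ∑ j, ∑ k, pr x j k * H353.N.hs W k j (Y C.H x s) = lap W (Y C.H x s) -
        ∑ j, ∑ k, x j * x k * H353.N.hs W j k (Y C.H x s) := by
      unfold lap pr
      simp only [sub_mul, Finset.sum_sub_distrib]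
      have c1 : ∑ j, ∑ k, kd j k * H353.N.hs W k j (Y C.H x s) =
          ∑ j, H353.N.hs W j j (Y C.H x s) :=
        Finset.sum_congr rfl fun j _ => by simp [kd]
      have c2 : ∑ j, ∑ k, x j * x k * H353.N.hs W k j (Y C.H x s) =
          ∑ j, ∑ k, x j * x k * H353.N.hs W j k (Y C.H x s) := by
        rw [Finset.sum_comm]
        exact Finset.sum_congr rfl fun j _ => Finset.sum_congr rfl fun k _ => by ring
      rw [c1, c2]
    rw [← k2]
    simp only [k1, mul_add, Finset.sum_add_distrib, Finset.mul_sum]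
    rw [add_comm]
    congr 1
    exact Finset.sum_congr rfl fun j _ => Finset.sum_congr rfl fun k _ => by ring
  have e2 : ∀ x : E n, ‖x‖ = 1 → sg C.H s x * ∑ j, x j * (φ (Y C.H x s) * pd j W (Y C.H x s)) =
      φ (Y C.H x s) * (sg C.H s x * ∑ j, x j * pd j W (Y C.H x s)) := by
    intro x hx
    have : ∑ j, x j * (φ (Y C.H x s) * pd j W (Y C.H x s)) =
        φ (Y C.H x s) * ∑ j, x j * pd j W (Y C.H x s) := by
      rw [Finset.mul_sum]
      exact Finset.sum_congr rfl fun j _ => by ring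
    rw [this]; ring
  rw [SI_congr e1, SI_congr e2] at h
  have cφ : ContinuousOn (fun x => φ (Y C.H x s)) (sphere (0 : E n) 1) :=
    cYF fun x hx => (hφ x hx).continuousAt
  have c1 : ∀ j k, ContinuousOn (fun x => H353.N.hs W j k (Y C.H x s)) (sphere (0 : E n) 1) :=
    fun j k => cYF fun x hx => (cd_hs (hW x hx) j k).continuousAt
  have c2 : ∀ j, ContinuousOn (fun x => pd j W (Y C.H x s)) (sphere (0 : E n) 1) := fun j =>
    cYF fun x hx => (pd_contDiffAt (hW x hx) j).continuousAt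
  have c2' : ∀ j, ContinuousOn (fun x => pd j φ (Y C.H x s)) (sphere (0 : E n) 1) := fun j =>
    cYF fun x hx => (pd_contDiffAt (hφ x hx) j).continuousAt
  have c3 : ContinuousOn (fun x => lap W (Y C.H x s)) (sphere (0 : E n) 1) :=
    continuousOn_finsetSum _ fun i _ => c1 i i
  have cpr : ∀ j k, ContinuousOn (fun x : E n => pr x j k) (sphere (0 : E n) 1) := fun j k =>
    continuousOn_const.sub ((cC j).mul (cC k))
  have d1 : ContinuousOn (fun x => dts C.H s x * (∑ j, ∑ k, pr x j k *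
      (pd k φ (Y C.H x s) * pd j W (Y C.H x s)))) (sphere (0 : E n) 1) :=
    (dts_cont C (Sm.const s)).mul (continuousOn_finsetSum _ fun j _ =>
      continuousOn_finsetSum _ fun k _ => (cpr j k).mul ((c2' k).mul (c2 j)))
  have d2 : ContinuousOn (fun x => φ (Y C.H x s) * (dts C.H s x * (lap W (Y C.H x s) -
        ∑ j, ∑ k, x j * x k * H353.N.hs W j k (Y C.H x s)))) (sphere (0 : E n) 1) :=
    cφ.mul ((dts_cont C (Sm.const s)).mul (c3.sub (continuousOn_finsetSum _ fun j _ =>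
    continuousOn_finsetSum _ fun k _ => ((cC j).mul (cC k)).mul (c1 j k))))
  have d3 : ContinuousOn (fun x => φ (Y C.H x s) * (sg C.H s x *
      ∑ j, x j * pd j W (Y C.H x s))) (sphere (0 : E n) 1) :=
    cφ.mul ((sg_cont C (Sm.const s)).mul
      (continuousOn_finsetSum _ fun j _ => (cC j).mul (c2 j)))
  rw [SI_add d1 d2] at h
  have e3 : SI (fun x => φ (Y C.H x s) * zf C W s x) =
      SI (fun x => φ (Y C.H x s) * (dts C.H s x * (lap W (Y C.H x s) -
        ∑ j, ∑ k, x j * x k * H353.N.hs W j k (Y C.H x s)))) -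
      SI (fun x => φ (Y C.H x s) * (sg C.H s x * ∑ j, x j * pd j W (Y C.H x s))) := by
    rw [← SI_sub d2 d3]
    refine SI_congr fun x _ => ?_
    unfold zf
    ring
  rw [e3]
  linarith only [h]

theorem SI_z [Fact (3 ≤ n)] (hs : ∀ x : E n, ‖x‖ = 1 → C.U x ≤ s) {W : E n → ℝ}
    (hW : ∀ x : E n, ‖x‖ = 1 → ContDiffAt ℝ ∞ W (Y C.H x s)) : SI (zf C W s) = 0 := by
  have h := SI_wz hs hW (φ := fun _ => 1) fun _ _ => contDiffAt_const
  simp only [one_mul, Vale.Agent.P366.pd_const, zero_mul, mul_zero,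
    Finset.sum_const_zero] at h
  rw [SI_const, mul_zero, neg_zero] at h
  exact h

theorem SI_yz [Fact (3 ≤ n)] (hs : ∀ x : E n, ‖x‖ = 1 → C.U x ≤ s) {W : E n → ℝ}
    (hW : ∀ x : E n, ‖x‖ = 1 → ContDiffAt ℝ ∞ W (Y C.H x s)) (i : Fin n) :
    SI (fun x => Y C.H x s i * zf C W s x) = - SI (fun x => x i * (W (Y C.H x s) * sg C.H s x)) := by
  have hco : ∀ y : E n, ContDiffAt ℝ ∞ (fun y : E n => y i) y := fun y =>
    (contDiff_piLp_apply (p := 2) (i := i)).contDiffAt
  have h := SI_wz hs hW (φ := fun y => y i) fun x _ => hco _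
  have h2 := piola_Y C hs (G := fun j y => kd i j * W y) fun j x hx =>
    contDiffAt_const.mul (hW x hx)
  rw [h]
  congr 1
  have e1 : SI (fun x => dts C.H s x * ∑ j, ∑ k, pr x j k *
      (pd k (fun y : E n => y i) (Y C.H x s) * pd j W (Y C.H x s))) =
      SI (fun x => dts C.H s x * ∑ j, ∑ k, pr x j k *
      pd k (fun y => kd i j * W y) (Y C.H x s)) := by
    refine SI_congr fun x hx => ?_
    have hWd : DifferentiableAt ℝ W (Y C.H x s) := (hW x hx).differentiableAt (by simp)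
    congr 1
    have k1 : ∀ k, pd k (fun y : E n => y i) (Y C.H x s) = kd k i := fun k =>
      Vale.Agent.P366.pd_coord k i _
    have k2 : ∀ j k, pd k (fun y => kd i j * W y) (Y C.H x s) = kd i j * pd k W (Y C.H x s) := by
      intro j k
      rw [Vale.Agent.P366.pd_mul (differentiableAt_const _) hWd, Vale.Agent.P366.pd_const]
      ring
    simp only [k1, k2]
    rw [Finset.sum_comm]
    refine Finset.sum_congr rfl fun k _ => Finset.sum_congr rfl fun j _ => ?_
    have h3 : kd k i = kd i k := kd_comm k i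
    have h4 : pr x j k = pr x k j := pr_symm x j k
    rw [h3, h4]
  rw [e1, h2]
  refine SI_congr fun x hx => ?_
  have : ∑ j, x j * (kd i j * W (Y C.H x s)) = x i * W (Y C.H x s) := by simp [kd]
  rw [this]; ring

lemma pr_nonneg (hx : ‖x‖ = 1) (v : Fin n → ℝ) : 0 ≤ ∑ j, ∑ k, pr x j k * (v k * v j) := by
  have hxx := sum_xx hx
  have e : ∑ j, ∑ k, pr x j k * (v k * v j) = ∑ j, v j ^ 2 - (∑ j, x j * v j) ^ 2 := by
    have h1 : ∑ j, ∑ k, kd j k * (v k * v j) = ∑ j, v j ^ 2 :=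
      Finset.sum_congr rfl fun j _ => by simp [kd, sq]
    rw [← h1, sq, Finset.sum_mul_sum, ← Finset.sum_sub_distrib]
    refine Finset.sum_congr rfl fun j _ => ?_
    rw [← Finset.sum_sub_distrib]
    refine Finset.sum_congr rfl fun k _ => ?_
    unfold pr
    ring
  rw [e]
  have h2 : 0 ≤ ∑ j, (v j - (∑ k, x k * v k) * x j) ^ 2 := Finset.sum_nonneg fun j _ => sq_nonneg _
  set c := ∑ k, x k * v k with hc
  have e2 : ∑ j, (v j - c * x j) ^ 2 = ∑ j, v j ^ 2 - 2 * c * c + c ^ 2 * 1 := by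
    rw [← hxx]
    nth_rewrite 3 [hc]
    simp only [Finset.mul_sum, ← Finset.sum_add_distrib, ← Finset.sum_sub_distrib]
    exact Finset.sum_congr rfl fun j _ => by ring
  rw [e2] at h2
  linarith only [h2]

/-- the surface Laplacian against a nondecreasing function of `W` -/
theorem SI_gz [Fact (3 ≤ n)] (hs : ∀ x : E n, ‖x‖ = 1 → C.U x ≤ s) {W : E n → ℝ}
    (hW : ∀ x : E n, ‖x‖ = 1 → ContDiffAt ℝ ∞ W (Y C.H x s)) {g g' : ℝ → ℝ}
    (hg : ContDiff ℝ ∞ g) (hg' : ∀ r, HasDerivAt g (g' r) r) (hm : ∀ r, 0 ≤ g' r) :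
    SI (fun x => g (W (Y C.H x s)) * zf C W s x) ≤ 0 := by
  have h := SI_wz hs hW (φ := fun y => g (W y)) fun x hx => hg.contDiffAt.comp _ (hW x hx)
  rw [h, neg_nonpos]
  refine SI_nonneg fun x hx => mul_nonneg (dts_pos C hx (hs x hx)).le ?_
  have hWd : DifferentiableAt ℝ W (Y C.H x s) := (hW x hx).differentiableAt (by simp)
  have k1 : ∀ k, pd k (fun y => g (W y)) (Y C.H x s) =
      g' (W (Y C.H x s)) * pd k W (Y C.H x s) := by
    intro k
    unfold Vale.Agent.P366.pd
    have := (hg' (W (Y C.H x s))).comp_hasFDerivAt (Y C.H x s) hWd.hasFDerivAt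
    rw [show (fun y => g (W y)) = g ∘ W from rfl, this.fderiv]
    rfl
  simp only [k1]
  have e : ∑ j, ∑ k, pr x j k * (g' (W (Y C.H x s)) * pd k W (Y C.H x s) * pd j W (Y C.H x s)) =
      g' (W (Y C.H x s)) * ∑ j, ∑ k, pr x j k * (pd k W (Y C.H x s) * pd j W (Y C.H x s)) := by
    rw [Finset.mul_sum]
    refine Finset.sum_congr rfl fun j _ => ?_
    rw [Finset.mul_sum]
    exact Finset.sum_congr rfl fun k _ => by ring
  rw [e]
  exact mul_nonneg (hm _) (pr_nonneg hx fun k => pd k W (Y C.H x s))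

end Vale.Agent.P366.KSN
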