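import Vale.Agent.P366.H296.N.X4a

/-! Kerr-Schild exteriors in all dimensions: the monotonicity in time on a level set. -/

open MeasureTheory Metric Filter Topology Set
open scoped ContDiff ENNReal

noncomputable section
namespace Vale.Agent.P366.KSN

open Vale.Agent.P366 (pd E)
open Vale.Agent.P366.H353.N
open Vale.Agent.P366.Kerr (NullCone IsSlice Region Psi pt sp nul ksG indG indK DECat)

variable {n : ℕ} {C : NullCone n} {lam f : E n → ℝ} {V : E (n + 1) → ℝ} {D : Stmt.Exterior n}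
  {x y z : E n} {s t : ℝ}

lemma f_ge (hS : IsSlice C lam V f D) (hx : ‖x‖ = 1) (hs : C.U x ≤ s) : - s ≤ f (Y C.H x s) := by
  have := f_add_nonneg_Y hS hx hs
  linarith only [this]

lemma hasDerivAt_pt (y : E n) (t : ℝ) :
    HasDerivAt (fun τ => pt τ y) (EuclideanSpace.single 0 1) t := by
  have e : (fun τ => pt τ y) = fun τ : ℝ => pt 0 y + τ • EuclideanSpace.single 0 1 := by
    funext τ
    ext j
    refine Fin.cases ?_ (fun k => ?_) j
    · simp [pt]
    · simp [pt]
  rw [e]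
  have h3 := ((hasDerivAt_id t).smul_const (EuclideanSpace.single 0 (1 : ℝ) : E (n + 1))).const_add
    (pt 0 y)
  rw [one_smul] at h3
  exact h3

lemma hasDerivAt_Vt {y : E n} {t : ℝ} (hV : DifferentiableAt ℝ V (pt t y)) :
    HasDerivAt (fun τ => V (pt τ y)) (pd 0 V (pt t y)) t :=
  hV.hasFDerivAt.comp_hasDerivAt t (hasDerivAt_pt y t)

/-- the first inequality, times the area density -/
lemma ineq_a (hS : IsSlice C lam V f D)
    (hV : ∀ p ∈ Region lam f D, ContDiffAt ℝ ∞ V p ∧ DECat (ksG lam V) (nul lam) p)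
    (hx : ‖x‖ = 1) (hs : C.U x < s) (ht : - s ≤ t) (ht' : t ≤ f (Y C.H x s)) :
    0 ≤ sg C.H s x * ((∑ j, x j * pd j.succ V (pt t (Y C.H x s))) - pd 0 V (pt t (Y C.H x s))) +
      V (pt t (Y C.H x s)) * (dts C.H s x * (lap lam (Y C.H x s) ^ 2 -
        ∑ i, ∑ j, H353.N.hs lam i j (Y C.H x s) ^ 2)) := by
  have hm := mem_region' hS hx hs.le ht ht'
  obtain ⟨hVs, hD⟩ := hV _ hm
  have hF := F_pos hS hx hs
  have h := (dec_ineq (lam := lam) (V := V) (p := pt t (Y C.H x s))
    (by rw [sp_pt]; exact hS.smL _ hF.le) (by rw [sp_pt]; exact gsq_lam hS hF) hVs hD).1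
  rw [sp_pt] at h
  have h1 := lap_lam_Y hS hx hs.le
  have hd := dts_pos C hx hs.le
  have h3 := mul_nonneg hd.le h
  simp only [pd_lam_Y hS hx hs.le] at h3
  rw [← h1]
  refine h3.trans_eq ?_
  ring

/-- the second inequality, times the area density -/
lemma ineq_b (hS : IsSlice C lam V f D)
    (hV : ∀ p ∈ Region lam f D, ContDiffAt ℝ ∞ V p ∧ DECat (ksG lam V) (nul lam) p)
    (hx : ‖x‖ = 1) (hs : C.U x < s) (ht : - s ≤ t) (ht' : t ≤ f (Y C.H x s)) :
    0 ≤ sg C.H s x * pd 0 V (pt t (Y C.H x s)) - zf C (fun z => V (pt t z)) s x := by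
  have hm := mem_region' hS hx hs.le ht ht'
  obtain ⟨hVs, hD⟩ := hV _ hm
  have hF := F_pos hS hx hs
  have h := (dec_ineq (lam := lam) (V := V) (p := pt t (Y C.H x s))
    (by rw [sp_pt]; exact hS.smL _ hF.le) (by rw [sp_pt]; exact gsq_lam hS hF) hVs hD).2
  rw [sp_pt] at h
  have h1 := lap_lam_Y hS hx hs.le
  have hd := dts_pos C hx hs.le
  have h3 := mul_nonneg hd.le h
  have hdv : DifferentiableAt ℝ V (pt t (Y C.H x s)) := hVs.differentiableAt (by simp)
  simp only [pd_lam_Y hS hx hs.le] at h3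
  unfold zf
  have e1 : ∀ j, pd j (fun z => V (pt t z)) (Y C.H x s) = pd j.succ V (pt t (Y C.H x s)) :=
    fun j => X5.pd_pt hdv j
  have e2 : ∀ i j, H353.N.hs (fun z => V (pt t z)) i j (Y C.H x s) =
      pd i.succ (pd j.succ V) (pt t (Y C.H x s)) := fun i j => X5.hs_pt hVs i j
  have e3 : lap (fun z => V (pt t z)) (Y C.H x s) =
      ∑ i : Fin n, pd i.succ (pd i.succ V) (pt t (Y C.H x s)) :=
    Finset.sum_congr rfl fun i _ => e2 i i
  rw [e3]
  simp only [e1, e2]
  rw [← h1]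
  refine h3.trans_eq ?_
  ring

theorem mono_v [Fact (3 ≤ n)] (hS : IsSlice C lam V f D)
    (hV : ∀ p ∈ Region lam f D, ContDiffAt ℝ ∞ V p ∧ DECat (ksG lam V) (nul lam) p) :
    ∃ L0 : ℝ, ∀ L, L0 ≤ L → SI (fun x => V (pt (-L) (Y C.H x L)) * sg C.H L x) ≤
      SI (fun x => V (pt 0 (Y C.H x L)) * sg C.H L x) := by
  obtain ⟨L0, hfar⟩ := f_zero_far hS
  refine ⟨max L0 1, fun L hL => ?_⟩
  have hL1 : 0 < L := one_pos.trans_le ((le_max_right _ _).trans hL)
  have hfar' : ∀ x : E n, ‖x‖ = 1 → C.U x < L ∧ f (Y C.H x L) = 0 := fun x hx =>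
    hfar x L hx ((le_max_left _ _).trans hL)
  have hVs : ∀ t ∈ Icc (-L) 0, ∀ x : E n, ‖x‖ = 1 → ContDiffAt ℝ ∞ V (pt t (Y C.H x L)) := by
    intro t ht x hx
    obtain ⟨h1, h2⟩ := hfar' x hx
    exact (hV _ (mem_region' hS hx h1.le ht.1 (by rw [h2]; exact ht.2))).1
  have cpt : ContinuousOn (fun p : ℝ × E n => pt p.1 (Y C.H p.2 L))
      (Icc (-L) 0 ×ˢ sphere 0 1) := by
    have h1 : Continuous fun p : ℝ × E n => pt p.1 p.2 := by
      have h2 : Continuous fun p : ℝ × E n =>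
          (WithLp.toLp 2 (Fin.cons p.1 fun i => p.2 i) : E (n + 1)) := by
        refine (PiLp.continuous_toLp 2 _).comp ?_
        rw [continuous_pi_iff]
        intro i
        refine Fin.cases ?_ (fun j => ?_) i
        · exact continuous_fst
        · exact (EuclideanSpace.proj (𝕜 := ℝ) j).continuous.comp continuous_snd
      exact h2
    exact h1.comp_continuousOn (continuousOn_fst.prodMk
      ((cY C L).comp continuousOn_snd fun p hp => hp.2))
  have csg : ContinuousOn (fun p : ℝ × E n => sg C.H L p.2) (Icc (-L) 0 ×ˢ sphere 0 1) :=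
    (sg_cont C (Sm.const L)).comp continuousOn_snd fun p hp => hp.2
  have hmem : ∀ p ∈ Icc (-L) 0 ×ˢ sphere (0 : E n) 1, ContDiffAt ℝ ∞ V (pt p.1 (Y C.H p.2 L)) :=
    fun p hp => hVs p.1 hp.1 p.2 (by simpa using hp.2)
  refine H296.N.SI_mono_param (g := fun t x => V (pt t (Y C.H x L)) * sg C.H L x)
    (g' := fun t x => pd 0 V (pt t (Y C.H x L)) * sg C.H L x) (by linarith only [hL1]) ?_ ?_ ?_ ?_
  · refine ContinuousOn.mul ?_ csg
    intro p hp
    exact ContinuousAt.comp_continuousWithinAt (g := V)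
      (f := fun p : ℝ × E n => pt p.1 (Y C.H p.2 L)) (x := p)
      (hmem p hp).continuousAt (cpt p hp)
  · refine ContinuousOn.mul ?_ csg
    intro p hp
    exact ContinuousAt.comp_continuousWithinAt (g := pd 0 V)
      (f := fun p : ℝ × E n => pt p.1 (Y C.H p.2 L)) (x := p)
      (pd_contDiffAt (hmem p hp) 0).continuousAt (cpt p hp)
  · intro t ht x hx
    exact (hasDerivAt_Vt ((hVs t (Ioo_subset_Icc_self ht) x hx).differentiableAt
      (by simp))).mul_const _
  · intro t ht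
    have hU : ∀ x : E n, ‖x‖ = 1 → C.U x ≤ L := fun x hx => (hfar' x hx).1.le
    have hW : ∀ x : E n, ‖x‖ = 1 → ContDiffAt ℝ ∞ (fun z => V (pt t z)) (Y C.H x L) :=
      fun x hx => X5.cd_pt (hVs t (Ioo_subset_Icc_self ht) x hx)
    have h1 := SI_z hU hW
    have c1 : ContinuousOn (fun x => pd 0 V (pt t (Y C.H x L)) * sg C.H L x)
        (sphere (0 : E n) 1) := by
      refine ContinuousOn.mul ?_ (sg_cont C (Sm.const L))
      exact cYF (F := fun z => pd 0 V (pt t z)) fun x hx =>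
        (X5.cd_pt (pd_contDiffAt (hVs t (Ioo_subset_Icc_self ht) x hx) 0)).continuousAt
    have h2 := SI_mono (zf_cont hW) c1 fun x hx => by
      obtain ⟨a1, a2⟩ := hfar' x hx
      have := ineq_b hS hV hx a1 ht.1.le (by rw [a2]; exact ht.2.le)
      linarith only [this]
    rw [h1] at h2
    exact h2

end Vale.Agent.P366.KSN
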